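import Mathlib.LinearAlgebra.Multilinear.Basic
import Mathlib.Algebra.BigOperators.Fin
import Mathlib.Algebra.Algebra.Bilinear
import Mathlib.Data.Matrix.Basis
import Mathlib.Data.Fintype.Pigeonhole
import Mathlib.Tactic

/-!
# The Capelli identity in characteristic two, in the form of a sum over a set with swaps
-/

namespace Vale.Agent.P192Z.Nil

/-- A sum of values of multilinear maps over a finite set that is stable under fixed point free
swaps of the arguments vanishes in characteristic two, if the number of arguments exceeds the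
number of generators of the module. -/
theorem capelli_sum {K B V κ ι W : Type*} [CommRing K] [AddCommGroup B] [Module K B]
    [AddCommGroup V] [Module K V] [Fintype κ] [Fintype ι] [DecidableEq ι]
    (h2 : ∀ x : V, x + x = 0) (e : κ → B) (hspan : ∀ b : B, ∃ l : κ → K, b = ∑ j, l j • e j)
    (hk : Fintype.card κ < Fintype.card ι) (S : Finset W)
    (f : W → MultilinearMap K (fun _ : ι => B) V) (a : W → ι → B) (sw : ι → ι → W → W)
    (hmem : ∀ s t, s ≠ t → ∀ w ∈ S, sw s t w ∈ S)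
    (hinv : ∀ s t, s ≠ t → ∀ w ∈ S, sw s t (sw s t w) = w)
    (hne : ∀ s t, s ≠ t → ∀ w ∈ S, sw s t w ≠ w)
    (hf : ∀ s t, s ≠ t → ∀ w ∈ S, f (sw s t w) = f w)
    (ha : ∀ s t, s ≠ t → ∀ w ∈ S, a (sw s t w) = a w ∘ Equiv.swap s t) :
    ∑ w ∈ S, f w (a w) = 0 := by
  classical
  choose l hl using hspan
  have h1 : ∀ w, f w (a w) = ∑ j : ι → κ, (∏ i, l (a w i) (j i)) • f w (fun i => e (j i)) := by
    intro w
    have : a w = fun i => ∑ j, l (a w i) j • e j := funext fun i => hl _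
    conv_lhs => rw [this]
    rw [MultilinearMap.map_sum]
    exact Finset.sum_congr rfl fun j _ => (f w).map_smul_univ _ _
  simp only [h1]
  rw [Finset.sum_comm]
  refine Finset.sum_eq_zero fun j _ => ?_
  obtain ⟨s, t, hst, hj⟩ := Fintype.exists_ne_map_eq_of_card_lt j hk
  refine Finset.sum_involution (fun w _ => sw s t w) (fun w hw => ?_)
    (fun w hw _ => hne s t hst w hw) (fun w hw => hmem s t hst w hw)
    (fun w hw => hinv s t hst w hw)
  have h3 : ∏ i, l (a (sw s t w) i) (j i) = ∏ i, l (a w i) (j i) := by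
    rw [ha s t hst w hw, ← Equiv.prod_comp (Equiv.swap s t)]
    refine Finset.prod_congr rfl fun i _ => ?_
    rw [Function.comp_apply, Equiv.swap_apply_self]
    congr 1
    exact Equiv.apply_swap_eq_self hj i
  rw [hf s t hst w hw, h3, h2]

/-- The multilinear map `a ↦ c₀ * (a 0 * c 0) * (a 1 * c 1) * ...`. -/
def slots (K : Type*) {B : Type*} [CommRing K] [Ring B] [Algebra K B] {k : ℕ} (c₀ : B)
    (c : Fin k → B) : MultilinearMap K (fun _ : Fin k => B) B :=
  (LinearMap.mulLeft K c₀).compMultilinearMap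
    ((MultilinearMap.mkPiAlgebraFin K k B).compLinearMap fun i => LinearMap.mulRight K (c i))

theorem slots_apply (K : Type*) {B : Type*} [CommRing K] [Ring B] [Algebra K B] {k : ℕ} (c₀ : B)
    (c a : Fin k → B) : slots K c₀ c a = c₀ * (List.ofFn fun i => a i * c i).prod := rfl

/-- The same for products `c₀ * (a 0 * c 0) * (a 1 * c 1) * ...` in an algebra. -/
theorem capelli_prod {K B κ W : Type*} [CommRing K] [Ring B] [Algebra K B] [Fintype κ] {k : ℕ}
    (h2 : ∀ x : B, x + x = 0) (e : κ → B) (hspan : ∀ b : B, ∃ l : κ → K, b = ∑ j, l j • e j)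
    (hk : Fintype.card κ < k) (S : Finset W) (c₀ : W → B) (c a : W → Fin k → B)
    (sw : Fin k → Fin k → W → W)
    (hmem : ∀ s t, s ≠ t → ∀ w ∈ S, sw s t w ∈ S)
    (hinv : ∀ s t, s ≠ t → ∀ w ∈ S, sw s t (sw s t w) = w)
    (hne : ∀ s t, s ≠ t → ∀ w ∈ S, sw s t w ≠ w)
    (hc₀ : ∀ s t, s ≠ t → ∀ w ∈ S, c₀ (sw s t w) = c₀ w)
    (hc : ∀ s t, s ≠ t → ∀ w ∈ S, c (sw s t w) = c w)
    (ha : ∀ s t, s ≠ t → ∀ w ∈ S, a (sw s t w) = a w ∘ Equiv.swap s t) :
    ∑ w ∈ S, c₀ w * (List.ofFn fun i => a w i * c w i).prod = 0 :=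
  capelli_sum (K := K) h2 e hspan (by rwa [Fintype.card_fin]) S
    (fun w => slots K (c₀ w) (c w)) a sw hmem hinv hne
    (fun s t h w hw => by simp only [hc₀ s t h w hw, hc s t h w hw]) ha

/-- Matrices are spanned by the matrix units. -/
theorem matrix_span {K n : Type*} [CommRing K] [Fintype n] [DecidableEq n] (b : Matrix n n K) :
    ∃ l : n × n → K, b = ∑ j : n × n, l j • Matrix.single j.1 j.2 (1 : K) := by
  refine ⟨fun j => b j.1 j.2, ?_⟩
  rw [Fintype.sum_prod_type]
  conv_lhs => rw [Matrix.matrix_eq_sum_single b]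
  simp

/-- The version for matrices over a commutative ring of characteristic two. -/
theorem capelli_matrix {K n W : Type*} [CommRing K] [Fintype n] [DecidableEq n] {k : ℕ}
    (h2 : ∀ x : K, x + x = 0) (hk : Fintype.card n * Fintype.card n < k) (S : Finset W)
    (c₀ : W → Matrix n n K) (c a : W → Fin k → Matrix n n K)
    (sw : Fin k → Fin k → W → W)
    (hmem : ∀ s t, s ≠ t → ∀ w ∈ S, sw s t w ∈ S)
    (hinv : ∀ s t, s ≠ t → ∀ w ∈ S, sw s t (sw s t w) = w)
    (hne : ∀ s t, s ≠ t → ∀ w ∈ S, sw s t w ≠ w)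
    (hc₀ : ∀ s t, s ≠ t → ∀ w ∈ S, c₀ (sw s t w) = c₀ w)
    (hc : ∀ s t, s ≠ t → ∀ w ∈ S, c (sw s t w) = c w)
    (ha : ∀ s t, s ≠ t → ∀ w ∈ S, a (sw s t w) = a w ∘ Equiv.swap s t) :
    ∑ w ∈ S, c₀ w * (List.ofFn fun i => a w i * c w i).prod = 0 :=
  capelli_prod (K := K) (fun x => by ext i j; simp [h2]) _ matrix_span
    (by rwa [Fintype.card_prod]) S c₀ c a sw hmem hinv hne hc₀ hc ha

end Vale.Agent.P192Z.Nil
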